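import Vale.Agent.P011.H308.RedFF
import Vale.Agent.P011.Hey.Fin0

/-!
# Totally split places of a finite separable extension of a global function field (helper553)
-/

open Module Polynomial IsDedekindDomain Vale.Agent.P011.H738 Vale.Agent.P011.H519
  Vale.Agent.P011.H271 Vale.Agent.P011.H308

namespace Vale.Agent.P011.H553.Cst

/-- **Totally split places.** -/
theorem exists_tot {k N : Type} [Field k] [GFF k] [Field N] [Algebra k N] [FiniteDimensional k N]
    [Algebra.IsSeparable k N] {T : Set (Place k)} (hT : T.Finite) :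
    ∃ v : Place k, v ∉ T ∧ ∀ x : N, ((minpoly k x).map (algebraMap k v.comp)).Splits := by
  classical
  obtain ⟨Fq, _, _, φ, hφ⟩ := GFF.out (k := k)
  let _ := φ.toAlgebra
  have h1 : FiniteDimensional (RatFunc Fq) k := hφ.1
  have h2 : Algebra.IsSeparable (RatFunc Fq) k := hφ.2
  let _ : Algebra (RatFunc Fq) N := ((algebraMap k N).comp (algebraMap (RatFunc Fq) k)).toAlgebra
  have htow : IsScalarTower (RatFunc Fq) k N := IsScalarTower.of_algebraMap_eq fun _ => rfl
  have hfd : FiniteDimensional (RatFunc Fq) N := FiniteDimensional.trans (RatFunc Fq) k N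
  have hsep : Algebra.IsSeparable (RatFunc Fq) N := Algebra.IsSeparable.trans (RatFunc Fq) k N
  have hun : Finite Fq[X]ˣ := finite_units_poly Fq
  let S₂ : Set (HeightOneSpectrum Fq[X]) := {v | ∃ w ∈ T, ∀ a : Fq[X], a ∈ v.asIdeal ↔
    w.abv (algebraMap (RatFunc Fq) k (algebraMap Fq[X] (RatFunc Fq) a)) < 1}
  have hS₂ : S₂.Finite := by
    have h1 : ∀ w ∈ T, {v : HeightOneSpectrum Fq[X] | ∀ a : Fq[X], a ∈ v.asIdeal ↔
        w.abv (algebraMap (RatFunc Fq) k (algebraMap Fq[X] (RatFunc Fq) a)) < 1}.Finite := by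
      intro w _
      refine Set.Subsingleton.finite ?_
      intro v hv v' hv'
      refine HeightOneSpectrum.ext (Ideal.ext fun a => ?_)
      rw [hv a, hv' a]
    refine (hT.biUnion h1).subset ?_
    rintro v ⟨w, hw, hv⟩
    exact Set.mem_biUnion hw hv
  obtain ⟨v, hv, hsp⟩ := exists_splits (A := Fq[X]) (K₀ := RatFunc Fq) (L := N) hS₂
  have hquot := hasFiniteQuotients_poly Fq
  have hfinq : Finite (Fq[X] ⧸ v.asIdeal) := Ring.HasFiniteQuotients.finiteQuotient v.ne_bot
  let w : Place (RatFunc Fq) := plHos (RatFunc Fq) v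
  let ι : v.adicCompletion (RatFunc Fq) →ₐ[RatFunc Fq] w.comp :=
    { toPl (RatFunc Fq) v with commutes' := toPl_algebraMap }
  have hspw : ∀ x : N, ((minpoly (RatFunc Fq) x).map (algebraMap (RatFunc Fq) w.comp)).Splits := by
    intro x
    have h3 := (hsp x).map (ι : v.adicCompletion (RatFunc Fq) →+* w.comp)
    rw [Polynomial.map_map] at h3
    have h4 : (ι : v.adicCompletion (RatFunc Fq) →+* w.comp).comp
        (algebraMap (RatFunc Fq) (v.adicCompletion (RatFunc Fq))) =
        algebraMap (RatFunc Fq) w.comp := ι.comp_algebraMap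
    rwa [h4] at h3
  obtain ⟨τ, -⟩ := H519.exists_lift (K₀ := RatFunc Fq) (K := RatFunc Fq) (L := N) (F := w.comp)
    hspw (Algebra.ofId (RatFunc Fq) w.comp)
  let s : k →ₐ[RatFunc Fq] w.comp := τ.comp (IsScalarTower.toAlgHom (RatFunc Fq) k N)
  let V : Place k := plExt w s
  refine ⟨V, ?_, fun x => ?_⟩
  · intro hs
    refine hv ⟨plExt w s, hs, fun a => ?_⟩
    rw [plExt_abv, s.commutes, H308.norm_algebraMap]
    exact (v.adicAbv_coe_lt_one_iff (one_lt_qv v) a).symm
  · let e : w.comp ≃+* V.comp := (extE w s).symm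
    have he : ∀ c : k, e (s c) = algebraMap k V.comp c := extE_symm_apply w s
    have h3 := (hspw x).map (e : w.comp →+* V.comp)
    rw [Polynomial.map_map] at h3
    have h4 : (e : w.comp →+* V.comp).comp (algebraMap (RatFunc Fq) w.comp) =
        (algebraMap k V.comp).comp (algebraMap (RatFunc Fq) k) := by
      ext c
      change e (algebraMap (RatFunc Fq) w.comp c) = algebraMap k V.comp (algebraMap (RatFunc Fq) k c)
      rw [← he, s.commutes]
    rw [h4, ← Polynomial.map_map] at h3
    have h5 : minpoly k x ∣ (minpoly (RatFunc Fq) x).map (algebraMap (RatFunc Fq) k) :=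
      minpoly.dvd_map_of_isScalarTower (RatFunc Fq) k x
    refine h3.of_dvd ?_ (Polynomial.map_dvd _ h5)
    have h6 : (minpoly (RatFunc Fq) x) ≠ 0 :=
      minpoly.ne_zero (Algebra.IsIntegral.isIntegral x)
    exact Polynomial.map_ne_zero (Polynomial.map_ne_zero h6)

/-- Totally split places of a tower: every embedding of the lower field extends. -/
theorem exists_tot_tower {k K L : Type} [Field k] [GFF k] [Field K] [Field L] [Algebra k K]
    [Algebra K L] [FiniteDimensional k K] [FiniteDimensional K L] [Algebra.IsSeparable k K]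
    [Algebra.IsSeparable K L] {T : Set (Place k)} (hT : T.Finite) :
    ∃ v : Place k, v ∉ T ∧ Nonempty (K →ₐ[k] v.comp) ∧ ∀ ι : K →ₐ[k] v.comp, ∃ ψ : L →+* v.comp,
      ∀ c, ψ (algebraMap K L c) = ι c := by
  let _ : Algebra k L := ((algebraMap K L).comp (algebraMap k K)).toAlgebra
  have htow : IsScalarTower k K L := IsScalarTower.of_algebraMap_eq fun _ => rfl
  have hfd : FiniteDimensional k L := FiniteDimensional.trans k K L
  have hsep : Algebra.IsSeparable k L := Algebra.IsSeparable.trans k K L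
  obtain ⟨v, hv, h⟩ := exists_tot (k := k) (N := L) hT
  refine ⟨v, hv, ?_, fun ι => ?_⟩
  · obtain ⟨τ, -⟩ := H519.exists_lift (K₀ := k) (K := k) (L := L) (F := v.comp) h
      (Algebra.ofId k v.comp)
    exact ⟨τ.comp (IsScalarTower.toAlgHom k K L)⟩
  · obtain ⟨τ, hτ⟩ := H519.exists_lift (K₀ := k) (K := K) (L := L) (F := v.comp) h ι
    exact ⟨τ, hτ⟩

end Vale.Agent.P011.H553.Cst
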