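import Vale.Agent.P011.H553.Cst.SplU
import Vale.Agent.P011.H553.Cst.Tot

/-!
# The splitting extension of constants (helper553)
-/

namespace Vale.Agent.P011.H553.Cst

open Module Polynomial
open Vale.Agent.P011.W Vale.Agent.P011.H738 Vale.Agent.P011.H271
open Vale.Agent.P011.H961 (SetG)

/-- **A cyclic extension `L` of `K` which splits `D`, in which the units are norms everywhere and
which is totally split above infinitely many places of `k`.** Every characteristic. -/
theorem exists_const {k K D : Type} [Field k] [Field K] [StarRing K] [DivisionRing D] [StarRing D]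
    [Algebra k K] [Algebra k D] [Algebra K D] [IsScalarTower k K D] {n : ℕ} [GFF k]
    (hS : SetG k K D) (hdeg : finrank K D = n ^ 2) :
    ∃ (L : Type) (_ : Field L) (_ : Algebra K L) (_ : FiniteDimensional K L)
      (_ : IsGalois K L) (m : ℕ) (b : Basis (Fin m) K L) (σ : L ≃ₐ[K] L),
      (∀ τ : L ≃ₐ[K] L, ∃ i, i < m ∧ τ = σ ^ i) ∧
      Spl D n (algebraMap K L) ∧
      (∀ (R : Type) [NormedField R] [IsUltrametricDist R] [ProperSpace R] (φ : K →+* R) (x : R),
        ‖x‖ = 1 → ∃ y : Fin m → R, (∑ i, y i • (Algebra.leftMulMatrix b (b i)).map φ).det = x ∧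
          ∀ i, ‖y i - φ (b.repr 1 i)‖ ≤ ‖x - 1‖) ∧
      (∀ T : Set (Place k), T.Finite → ∃ v : Place k, v ∉ T ∧ Nonempty (K →ₐ[k] v.comp) ∧
        ∀ ι : K →ₐ[k] v.comp, ∃ ψ : L →+* v.comp, ∀ c, ψ (algebraMap K L c) = ι c) := by
  have := hS.finK
  have := hS.sep
  have hp := H279.char_prime k
  have : Fact (ringChar k).Prime := ⟨hp⟩
  have : CharP K (ringChar k) := charP_of_injective_algebraMap (algebraMap k K).injective _
  obtain ⟨N, hN, hspl⟩ := exists_spl hS hdeg (ringChar k)
  obtain ⟨L, _, _, _, _, m, b, σ, hσ, hζ, hU⟩ := exists_ext K (ringChar k) N hN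
  refine ⟨L, inferInstance, inferInstance, inferInstance, inferInstance, m, b, σ, hσ, hspl L hζ,
    ?_, fun T hT => exists_tot_tower (k := k) (K := K) (L := L) hT⟩
  intro R _ _ _ φ x hx
  exact hU R φ x hx

end Vale.Agent.P011.H553.Cst
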