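import Vale.Agent.P011.H553.Cst.Loc

/-!
# The extension by the roots of unity in characteristic `p` (helper553)
-/

namespace Vale.Agent.P011.H553.Cst

open Module Polynomial

section cyc

theorem exists_gen (G : Type*) [Group G] [IsCyclic G] [Finite G] {m : ℕ} (hm : Nat.card G = m) :
    ∃ σ : G, ∀ τ : G, ∃ i, i < m ∧ τ = σ ^ i := by
  classical
  obtain ⟨σ, hσ⟩ := IsCyclic.exists_generator (α := G)
  refine ⟨σ, fun τ => ?_⟩
  have h1 : orderOf σ = m := by rw [← hm]; exact orderOf_eq_card_of_forall_mem_zpowers hσ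
  have h2 : τ ∈ Submonoid.powers σ := mem_powers_iff_mem_zpowers.mpr (hσ τ)
  rw [mem_powers_iff_mem_range_orderOf, Finset.mem_image] at h2
  obtain ⟨i, hi, h⟩ := h2
  exact ⟨i, by rw [← h1]; exact Finset.mem_range.mp hi, h.symm⟩

end cyc

section ext

variable {K L : Type} [Field K] [Field L] [Algebra K L] [FiniteDimensional K L] [IsGalois K L]

/-- **The structure of the extension generated by a root of unity in characteristic `p`.** -/
theorem exists_str (p : ℕ) [Fact p.Prime] [CharP K p] {ζ : L} {N : ℕ} (hN : 0 < N)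
    (hζ : ζ ^ N = 1) (hgen : Algebra.adjoin K {ζ} = ⊤) :
    IsCyclic (L ≃ₐ[K] L) ∧ ∃ (F Φ : Type) (_ : Field F) (_ : Finite F) (_ : Field Φ)
      (_ : Algebra F Φ) (_ : FiniteDimensional F Φ) (_ : IsGalois F Φ) (_ : IsCyclic (Φ ≃ₐ[F] Φ))
      (ιF : F →+* K) (ιΦ : Φ →+* L), (∀ c, ιΦ (algebraMap F Φ c) = algebraMap K L (ιF c)) ∧
      ∃ (m : ℕ) (β : Basis (Fin m) F Φ) (b : Basis (Fin m) K L), ∀ i, b i = ιΦ (β i) := by
  classical
  have hchL : CharP L p := charP_of_injective_algebraMap (algebraMap K L).injective p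
  let _ : Algebra (ZMod p) K := ZMod.algebra K p
  let _ : Algebra (ZMod p) L := ZMod.algebra L p
  have htow : IsScalarTower (ZMod p) K L := IsScalarTower.of_algebraMap_eq fun x =>
    DFunLike.congr_fun (RingHom.ext_zmod (algebraMap (ZMod p) L)
      ((algebraMap K L).comp (algebraMap (ZMod p) K))) x
  let Φ : IntermediateField (ZMod p) L := IntermediateField.adjoin (ZMod p) {ζ}
  have hζint : IsIntegral (ZMod p) ζ := by
    refine ⟨X ^ N - 1, monic_X_pow_sub_C 1 hN.ne', ?_⟩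
    rw [eval₂_sub, eval₂_X_pow, eval₂_one, hζ, sub_self]
  have hfdΦ : FiniteDimensional (ZMod p) Φ := IntermediateField.adjoin.finiteDimensional hζint
  have hfinΦ : Finite Φ := Module.finite_of_finite (ZMod p)
  have hgalΦ : IsGalois (ZMod p) Φ := inferInstance
  have hζΦ : ζ ∈ Φ := IntermediateField.mem_adjoin_simple_self (ZMod p) ζ
  -- the restriction
  let ρ0 : (L ≃ₐ[K] L) → (Φ ≃ₐ[ZMod p] Φ) := fun τ =>
    (τ.restrictScalars (ZMod p)).restrictNormal Φ
  have hρ0 : ∀ τ (z : Φ), ((ρ0 τ z : Φ) : L) = τ (z : L) := fun τ z =>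
    (τ.restrictScalars (ZMod p)).restrictNormal_commutes Φ z
  let ρ : (L ≃ₐ[K] L) →* (Φ ≃ₐ[ZMod p] Φ) := MonoidHom.mk' ρ0 (by
    intro τ τ'
    ext z
    rw [hρ0]
    change τ (τ' (z : L)) = ((ρ0 τ (ρ0 τ' z) : Φ) : L)
    rw [hρ0, hρ0])
  have hρ : ∀ τ (z : Φ), ((ρ τ z : Φ) : L) = τ (z : L) := hρ0
  have hinj : Function.Injective ρ := by
    intro τ τ' h
    have h1 : τ ζ = τ' ζ := by
      have h2 := congrArg (fun g : (Φ ≃ₐ[ZMod p] Φ) => ((g ⟨ζ, hζΦ⟩ : Φ) : L)) h
      simp only [hρ] at h2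
      exact h2
    have h3 : (τ : L →ₐ[K] L) = τ' := by
      refine AlgHom.ext_of_adjoin_eq_top hgen ?_
      intro x hx
      rw [Set.mem_singleton_iff] at hx
      rw [hx]
      exact h1
    ext x
    exact DFunLike.congr_fun h3 x
  have hcyc : IsCyclic (L ≃ₐ[K] L) := isCyclic_of_injective ρ hinj
  refine ⟨hcyc, ?_⟩
  let H : Subgroup (Φ ≃ₐ[ZMod p] Φ) := ρ.range
  let F : IntermediateField (ZMod p) Φ := IntermediateField.fixedField H
  have hcardH : Nat.card H = finrank K L := by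
    rw [← IsGalois.card_aut_eq_finrank]
    exact (Nat.card_congr (MonoidHom.ofInjective hinj).toEquiv).symm
  have hfr : finrank F Φ = finrank K L := by
    rw [← hcardH]
    exact IntermediateField.finrank_fixedField_eq_card H
  have hFK : ∀ c : F, ∃ a : K, algebraMap K L a = ((c : Φ) : L) := by
    intro c
    have h1 := (IsGalois.mem_range_algebraMap_iff_fixed (F := K) (E := L) ((c : Φ) : L)).mpr (by
      intro τ
      have h2 := (IntermediateField.mem_fixedField_iff H (c : Φ)).mp c.2 (ρ τ) ⟨τ, rfl⟩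
      rw [← hρ, h2])
    exact h1
  choose g hg using hFK
  have hKL := (algebraMap K L).injective
  let ιF : F →+* K :=
    { toFun := g
      map_one' := hKL (by rw [hg, map_one]; rfl)
      map_mul' := fun a b => hKL (by rw [hg, map_mul, hg, hg]; rfl)
      map_zero' := hKL (by rw [hg, map_zero]; rfl)
      map_add' := fun a b => hKL (by rw [hg, map_add, hg, hg]; rfl) }
  let ιΦ : Φ →+* L := algebraMap Φ L
  have hcomm : ∀ c : F, ιΦ (algebraMap F Φ c) = algebraMap K L (ιF c) := fun c => (hg c).symm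
  have hfinF : Finite F := Finite.of_injective (fun c : F => (c : Φ)) Subtype.val_injective
  have hfdF : FiniteDimensional F Φ := Module.Finite.of_finite
  let β : Basis (Fin (finrank F Φ)) F Φ := finBasis F Φ
  let v : Fin (finrank F Φ) → L := fun i => ιΦ (β i)
  have hspanΦ : ∀ z : Φ, ιΦ z ∈ Submodule.span K (Set.range v) := by
    intro z
    rw [← β.sum_repr z, map_sum]
    refine Submodule.sum_mem _ fun i _ => ?_
    rw [Algebra.smul_def, map_mul, hcomm, ← Algebra.smul_def]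
    exact Submodule.smul_mem _ _ (Submodule.subset_span ⟨i, rfl⟩)
  have hspan : ⊤ ≤ Submodule.span K (Set.range v) := by
    intro x _
    have h1 : x ∈ Algebra.adjoin K {ζ} := by rw [hgen]; trivial
    rw [Algebra.adjoin_singleton_eq_range_aeval] at h1
    obtain ⟨f, rfl⟩ := h1
    change aeval ζ f ∈ _
    rw [aeval_eq_sum_range]
    refine Submodule.sum_mem _ fun i _ => Submodule.smul_mem _ _ ?_
    exact hspanΦ ((⟨ζ, hζΦ⟩ : Φ) ^ i)
  refine ⟨F, Φ, inferInstance, hfinF, inferInstance, inferInstance, hfdF, inferInstance,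
    inferInstance, ιF, ιΦ, hcomm, finrank F Φ, β,
    basisOfTopLeSpanOfCardEqFinrank v hspan (by rw [Fintype.card_fin, hfr]), fun i => ?_⟩
  rw [coe_basisOfTopLeSpanOfCardEqFinrank]

end ext

section up

variable {K L F Φ : Type} [Field K] [Field L] [Algebra K L] [Field F] [Field Φ] [Algebra F Φ]
  {ιF : F →+* K} {ιΦ : Φ →+* L} {m : ℕ} {β : Basis (Fin m) F Φ} {b : Basis (Fin m) K L}

theorem repr_up (hcomm : ∀ c, ιΦ (algebraMap F Φ c) = algebraMap K L (ιF c))
    (hb : ∀ i, b i = ιΦ (β i)) (z : Φ) (i : Fin m) : b.repr (ιΦ z) i = ιF (β.repr z i) := by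
  have h1 : ιΦ z = ∑ j, ιF (β.repr z j) • b j := by
    conv_lhs => rw [← β.sum_repr z, map_sum]
    refine Finset.sum_congr rfl fun j _ => ?_
    rw [Algebra.smul_def, map_mul, hcomm, hb, Algebra.smul_def]
  rw [h1, b.repr_sum_self]

theorem nf_up {R : Type*} [CommRing R]
    (hcomm : ∀ c, ιΦ (algebraMap F Φ c) = algebraMap K L (ιF c))
    (hb : ∀ i, b i = ιΦ (β i)) (φ : K →+* R) (y : Fin m → R) :
    nf b φ y = nf β (φ.comp ιF) y := by
  rw [nf, nf]
  congr 1
  rw [mt, mt]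
  refine Finset.sum_congr rfl fun i _ => ?_
  congr 1
  ext l j
  rw [Matrix.map_apply, Matrix.map_apply, Algebra.leftMulMatrix_eq_repr_mul,
    Algebra.leftMulMatrix_eq_repr_mul, hb, hb, ← map_mul, repr_up hcomm hb]
  rfl

end up

/-- **Extensions of constants**: cyclic extensions containing a given root of unity, in which the
units are norms. -/
theorem exists_ext (K : Type) [Field K] (p : ℕ) [Fact p.Prime] [CharP K p] (N : ℕ)
    (hN : ¬ p ∣ N) : ∃ (L : Type) (_ : Field L) (_ : Algebra K L) (_ : FiniteDimensional K L)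
      (_ : IsGalois K L) (m : ℕ) (b : Basis (Fin m) K L) (σ : L ≃ₐ[K] L),
      (∀ τ : L ≃ₐ[K] L, ∃ i, i < m ∧ τ = σ ^ i) ∧ (∃ ζ : L, IsPrimitiveRoot ζ N) ∧
      (∀ (R : Type) [NormedField R] [IsUltrametricDist R] [ProperSpace R] (φ : K →+* R) (x : R),
        ‖x‖ = 1 → ∃ y : Fin m → R, nf b φ y = x ∧ ∀ i, ‖y i - φ (b.repr 1 i)‖ ≤ ‖x - 1‖) := by
  have hN0 : N ≠ 0 := by
    rintro rfl
    exact hN (dvd_zero p)
  have : NeZero N := ⟨hN0⟩
  have : NeZero (N : K) := ⟨fun h => hN ((CharP.cast_eq_zero_iff K p N).mp h)⟩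
  let L := CyclotomicField N K
  have hfd : FiniteDimensional K L := IsCyclotomicExtension.finiteDimensional {N} K L
  have hgal : IsGalois K L := IsCyclotomicExtension.isGalois {N} K L
  obtain ⟨ζ, hζ⟩ := IsCyclotomicExtension.exists_isPrimitiveRoot K L (Set.mem_singleton N) hN0
  have hgen : Algebra.adjoin K {ζ} = ⊤ := IsCyclotomicExtension.adjoin_primitive_root_eq_top hζ
  obtain ⟨hcyc, F, Φ, _, _, _, _, _, _, _, ιF, ιΦ, hcomm, m, β, b, hb⟩ :=
    exists_str p (K := K) (L := L) (Nat.pos_of_ne_zero hN0) hζ.pow_eq_one hgen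
  have hm : Nat.card (L ≃ₐ[K] L) = m := by
    rw [IsGalois.card_aut_eq_finrank, finrank_eq_card_basis b, Fintype.card_fin]
  have hm' : Nat.card (Φ ≃ₐ[F] Φ) = m := by
    rw [IsGalois.card_aut_eq_finrank, finrank_eq_card_basis β, Fintype.card_fin]
  obtain ⟨σ, hσ⟩ := exists_gen (L ≃ₐ[K] L) hm
  obtain ⟨σ', hσ'⟩ := exists_gen (Φ ≃ₐ[F] Φ) hm'
  refine ⟨L, inferInstance, inferInstance, hfd, hgal, m, b, σ, hσ, ⟨ζ, hζ⟩, ?_⟩
  intro R _ _ _ φ x hx
  obtain ⟨y, hy, hy'⟩ := unit_nf β (φ.comp ιF) hσ' hx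
  refine ⟨y, ?_, fun i => ?_⟩
  · rw [nf_up hcomm hb]
    exact hy
  · have h1 := repr_up hcomm hb 1 i
    rw [map_one] at h1
    rw [h1]
    exact hy' i

end Vale.Agent.P011.H553.Cst
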