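import Vale.Agent.P011.H553.Cst.Nf

/-!
# The norm form of a finite field is surjective after every finite base change (helper553)
-/

namespace Vale.Agent.P011.H553.Cst

open Module TensorProduct

section count

variable {B κ : Type*} [CommRing B] [Finite B] [Field κ] (α : κ →+* B)
  (s : B ≃+* B) {m : ℕ}

/-- products of the first conjugates -/
def pn (s : B ≃+* B) (u : B) (i : ℕ) : B := ∏ l ∈ Finset.range i, (s ^ l) u

omit [Finite B] in
theorem pn_zero (u : B) : pn s u 0 = 1 := by simp [pn]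

omit [Finite B] in
theorem pn_succ (u : B) (i : ℕ) : u * s (pn s u i) = pn s u (i + 1) := by
  rw [pn, pn, Finset.prod_range_succ', map_prod, mul_comm]
  congr 1
  refine Finset.prod_congr rfl fun l _ => ?_
  rw [pow_succ']
  rfl

omit [Finite B] in
/-- Hilbert 90. -/
theorem h90 (hm : 0 < m) (hsm : ∀ y, (s ^ m) y = y)
    (hfix : ∀ y, s y = y → ∃ r, α r = y)
    (hind : ∃ (M : Type) (_ : Field M) (π : B →+* M), ∀ y : ℕ → B,
      (∀ c : B, ∑ i ∈ Finset.range m, π (y i) * π ((s ^ i) c) = 0) → ∀ i < m, π (y i) = 0)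
    (u : B) (hu : pn s u m = 1) : ∃ z : B, IsUnit z ∧ u * s z = z := by
  obtain ⟨M, _, π, hπ⟩ := hind
  have h1 : ∃ c : B, ∑ i ∈ Finset.range m, π (pn s u i) * π ((s ^ i) c) ≠ 0 := by
    by_contra hcon
    push Not at hcon
    have h2 := hπ (pn s u) hcon 0 hm
    rw [pn_zero, map_one] at h2
    exact one_ne_zero h2
  obtain ⟨c, hc⟩ := h1
  set z : B := ∑ i ∈ Finset.range m, pn s u i * (s ^ i) c with hz
  have hz1 : π z ≠ 0 := by
    rw [hz, map_sum]
    simp only [map_mul]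
    exact hc
  have hzs : u * s z = z := by
    have h2 : u * s z = ∑ i ∈ Finset.range m, pn s u (i + 1) * (s ^ (i + 1)) c := by
      rw [hz, map_sum, Finset.mul_sum]
      refine Finset.sum_congr rfl fun i _ => ?_
      rw [map_mul, ← mul_assoc, pn_succ, pow_succ' s]
      rfl
    have h3 := Finset.sum_range_succ' (fun i => pn s u i * (s ^ i) c) m
    have h4 := Finset.sum_range_succ (fun i => pn s u i * (s ^ i) c) m
    rw [h3] at h4
    have h5 : pn s u 0 * (s ^ 0) c = pn s u m * (s ^ m) c := by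
      rw [pn_zero, hu, hsm, pow_zero]
      rfl
    rw [h5] at h4
    rw [h2, hz]
    exact add_right_cancel h4
  refine ⟨z, ?_, hzs⟩
  -- the conjugates are multiples
  have h3 : ∀ i, ∃ w, z = w * (s ^ i) z := by
    intro i
    induction i with
    | zero => exact ⟨1, by rw [pow_zero, one_mul]; rfl⟩
    | succ i ih =>
      obtain ⟨w, hw⟩ := ih
      refine ⟨w * (s ^ i) u, ?_⟩
      have h5 : (s ^ i) z = (s ^ i) u * (s ^ (i + 1)) z := by
        conv_lhs => rw [← hzs, map_mul]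
        rw [pow_succ s i]
        rfl
      rw [mul_assoc, ← h5]
      exact hw
  obtain ⟨r, hr⟩ := hfix (pn s z m) (by
    have h6 := pn_succ s z m
    have h7 : pn s z (m + 1) = pn s z m * z := by
      rw [pn, Finset.prod_range_succ, hsm]
      rfl
    have h8 : z * s (pn s z m) = z * pn s z m := by
      rw [h6, h7, mul_comm]
    -- cancel by the direct computation
    rw [pn, map_prod]
    have h9 : ∏ x ∈ Finset.range m, s ((s ^ x) z) = ∏ x ∈ Finset.range m, (s ^ (x + 1)) z := by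
      refine Finset.prod_congr rfl fun l _ => ?_
      rw [pow_succ' s]
      rfl
    rw [h9]
    obtain ⟨n, rfl⟩ := Nat.exists_eq_succ_of_ne_zero hm.ne'
    rw [Finset.prod_range_succ, Finset.prod_range_succ' (fun x => (s ^ x) z)]
    exact congrArg _ (hsm z))
  have h6 : π (pn s z m) ≠ 0 := by
    rw [pn, map_prod]
    refine Finset.prod_ne_zero_iff.mpr fun i _ => ?_
    obtain ⟨w, hw⟩ := h3 i
    intro h0
    apply hz1
    rw [hw, map_mul, h0, mul_zero]
  have h7 : r ≠ 0 := by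
    rintro rfl
    rw [map_zero] at hr
    rw [← hr, map_zero] at h6
    exact h6 rfl
  have h8 : IsUnit (pn s z m) := by
    rw [← hr]
    exact (IsUnit.mk0 r h7).map α
  obtain ⟨n, rfl⟩ := Nat.exists_eq_succ_of_ne_zero hm.ne'
  rw [pn, Finset.prod_range_succ'] at h8
  exact isUnit_of_mul_isUnit_right h8

/-- Counting: the norm is surjective. -/
theorem norm_surj (hm : 0 < m) (hsm : ∀ y, (s ^ m) y = y) (hα : ∀ r, s (α r) = α r)
    (hfix : ∀ y, s y = y → ∃ r, α r = y)
    (hind : ∃ (M : Type) (_ : Field M) (π : B →+* M), ∀ y : ℕ → B,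
      (∀ c : B, ∑ i ∈ Finset.range m, π (y i) * π ((s ^ i) c) = 0) → ∀ i < m, π (y i) = 0)
    {x : κ} (hx : x ≠ 0) : ∃ y : B, pn s y m = α x := by
  classical
  let S : Bˣ →* Bˣ := Units.map (s : B →* B)
  have hS : ∀ u : Bˣ, ((S u : Bˣ) : B) = s u := fun _ => rfl
  let N : Bˣ →* Bˣ := ∏ l ∈ Finset.range m, Units.map ((s ^ l : B ≃+* B) : B →* B)
  have hN : ∀ u : Bˣ, ((N u : Bˣ) : B) = pn s u m := by
    intro u
    rw [pn]
    simp only [N, MonoidHom.finsetProd_apply, Units.coe_prod]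
    rfl
  let δ : Bˣ →* Bˣ := S * (MonoidHom.id Bˣ)⁻¹
  have hδ : ∀ u : Bˣ, δ u = S u * u⁻¹ := fun _ => rfl
  have hker : N.ker ≤ δ.range := by
    intro u hu
    rw [MonoidHom.mem_ker] at hu
    have h1 : pn s (u : B) m = 1 := by rw [← hN, hu]; rfl
    obtain ⟨z, hz, hz2⟩ := h90 α s hm hsm hfix hind (u : B) h1
    obtain ⟨w, rfl⟩ := hz
    refine ⟨w⁻¹, ?_⟩
    have h2 : u * S w = w := Units.ext hz2
    rw [hδ, map_inv, inv_inv]
    have h3 : u = w * (S w)⁻¹ := eq_mul_inv_of_mul_eq h2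
    rw [h3, mul_comm]
  have hrange : N.range ≤ δ.ker := by
    rintro _ ⟨u, rfl⟩
    rw [MonoidHom.mem_ker, hδ, mul_inv_eq_one]
    apply Units.ext
    rw [hS, hN]
    rw [pn, map_prod]
    have h9 : ∏ x ∈ Finset.range m, s ((s ^ x) (u : B)) =
        ∏ x ∈ Finset.range m, (s ^ (x + 1)) (u : B) := by
      refine Finset.prod_congr rfl fun l _ => ?_
      rw [pow_succ' s]
      rfl
    rw [h9]
    obtain ⟨n, rfl⟩ := Nat.exists_eq_succ_of_ne_zero hm.ne'
    rw [Finset.prod_range_succ, Finset.prod_range_succ' (fun x => (s ^ x) (u : B))]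
    exact congrArg _ (hsm u)
  have hcard : Nat.card δ.ker ≤ Nat.card N.range := by
    have h1 : Nat.card N.ker * Nat.card N.range = Nat.card Bˣ := by
      rw [← Subgroup.index_ker, Subgroup.card_mul_index]
    have h2 : Nat.card δ.ker * Nat.card δ.range = Nat.card Bˣ := by
      rw [← Subgroup.index_ker, Subgroup.card_mul_index]
    have h3 : Nat.card N.ker ≤ Nat.card δ.range := Subgroup.card_le_of_le hker
    have h4 : 0 < Nat.card δ.range := Nat.card_pos
    have h5 : Nat.card δ.ker * Nat.card δ.range ≤ Nat.card N.range * Nat.card δ.range := by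
      rw [h2, ← h1, mul_comm]
      exact Nat.mul_le_mul_left _ h3
    exact Nat.le_of_mul_le_mul_right h5 h4
  have heq : N.range = δ.ker := Subgroup.eq_of_le_of_card_ge hrange hcard
  have hxu : (Units.map (α : κ →* B) (Units.mk0 x hx)) ∈ δ.ker := by
    rw [MonoidHom.mem_ker, hδ, mul_inv_eq_one]
    exact Units.ext (hα x)
  rw [← heq] at hxu
  obtain ⟨u, hu⟩ := hxu
  refine ⟨u, ?_⟩
  rw [← hN, hu]
  rfl

end count

section fin

variable {F Φ κ : Type} [Field F] [Field Φ] [Algebra F Φ] [FiniteDimensional F Φ] [IsGalois F Φ]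
  [Field κ] [Finite κ] {m : ℕ} (b : Basis (Fin m) F Φ)

/-- **Every nonzero element of a finite field over `F` is a value of the norm form**. -/
theorem nf_fin (φ : F →+* κ) {σ : Φ ≃ₐ[F] Φ} (hσ : ∀ τ : Φ ≃ₐ[F] Φ, ∃ i, i < m ∧ τ = σ ^ i)
    {x : κ} (hx : x ≠ 0) : ∃ y : Fin m → κ, nf b φ y = x := by
  classical
  let _ : Algebra F κ := φ.toAlgebra
  have hm : finrank F Φ = m := by rw [finrank_eq_card_basis b, Fintype.card_fin]
  have hm0 : 0 < m := by rw [← hm]; exact finrank_pos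
  let bB : Basis (Fin m) κ (κ ⊗[F] Φ) := Algebra.TensorProduct.basis κ b
  have hfinB : Module.Finite κ (κ ⊗[F] Φ) := Module.Finite.of_basis bB
  have : Finite (κ ⊗[F] Φ) := Module.finite_of_finite κ
  let sA : (κ ⊗[F] Φ) ≃ₐ[κ] (κ ⊗[F] Φ) := Algebra.TensorProduct.congr AlgEquiv.refl σ
  let s : (κ ⊗[F] Φ) ≃+* (κ ⊗[F] Φ) := sA.toRingEquiv
  let α : κ →+* (κ ⊗[F] Φ) := algebraMap κ (κ ⊗[F] Φ)
  let β : Φ →+* (κ ⊗[F] Φ) :=
    ((Algebra.TensorProduct.includeRight : Φ →ₐ[F] κ ⊗[F] Φ) : Φ →+* κ ⊗[F] Φ)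
  have hαi : Function.Injective α := by
    intro r r' h
    have h1 : ∀ r : κ, α r = r • (1 : κ ⊗[F] Φ) := fun r => Algebra.algebraMap_eq_smul_one r
    obtain ⟨j⟩ : Nonempty (Fin m) := ⟨⟨0, hm0⟩⟩
    have h2 : ∃ j, bB.repr 1 j ≠ 0 := by
      by_contra hcon
      push Not at hcon
      have h3 : (1 : κ ⊗[F] Φ) = 0 := by
        rw [← bB.sum_repr 1]
        exact Finset.sum_eq_zero fun i _ => by rw [hcon, zero_smul]
      have h4 : (b.repr (1 : Φ)) = 0 := by
        ext i
        have h5 := congrArg (fun z => bB.repr z i) h3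
        simp only [map_zero, Finsupp.zero_apply] at h5
        have h6 : bB.repr 1 i = algebraMap F κ (b.repr 1 i) := by
          rw [show (1 : κ ⊗[F] Φ) = (1 : κ) ⊗ₜ (1 : Φ) from rfl,
            Algebra.TensorProduct.basis_repr_tmul]
          simp
        rw [h6] at h5
        exact (map_eq_zero (algebraMap F κ)).mp h5
      exact one_ne_zero (b.repr.map_eq_zero_iff.mp h4)
    obtain ⟨j, hj⟩ := h2
    rw [h1, h1] at h
    have h3 := congrArg (fun z => bB.repr z j) h
    simp only [map_smul, Finsupp.smul_apply, smul_eq_mul] at h3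
    exact mul_right_cancel₀ hj h3
  have hspow : ∀ (i : ℕ) (r : κ) (z : Φ), (s ^ i) (r ⊗ₜ z) = r ⊗ₜ ((σ ^ i) z) := by
    intro i
    induction i with
    | zero => intro r z; rfl
    | succ i ih =>
      intro r z
      rw [pow_succ' s, pow_succ' σ]
      change s ((s ^ i) (r ⊗ₜ z)) = r ⊗ₜ (σ ((σ ^ i) z))
      rw [ih]
      rfl
  have hσm : σ ^ m = 1 := by
    have h1 : Nat.card (Φ ≃ₐ[F] Φ) = m := by rw [IsGalois.card_aut_eq_finrank, hm]
    rw [← h1]
    exact pow_card_eq_one'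
  have hsm : ∀ y, (s ^ m) y = y := by
    intro y
    induction y using TensorProduct.induction_on with
    | zero => exact map_zero _
    | tmul r z => rw [hspow, hσm]; rfl
    | add y z hy hz => rw [map_add, hy, hz]
  obtain ⟨t, ht⟩ := Algebra.trace_surjective F Φ 1
  have hsum : ∀ z : Φ, ∑ i ∈ Finset.range m, (σ ^ i) z = algebraMap F Φ (Algebra.trace F Φ z) := by
    intro z
    rw [trace_eq_sum_automorphisms]
    have h1 := prod_cyc (M := Multiplicative Φ) hm hσ (fun τ => Multiplicative.ofAdd (τ z))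
    have h2 := congrArg Multiplicative.toAdd h1
    rw [toAdd_prod, toAdd_prod] at h2
    exact h2.symm
  have htr : ∀ w : κ ⊗[F] Φ, ∃ r : κ, α r = ∑ i ∈ Finset.range m, (s ^ i) w := by
    intro w
    induction w using TensorProduct.induction_on with
    | zero => exact ⟨0, by rw [map_zero]; exact (Finset.sum_eq_zero fun i _ => map_zero _).symm⟩
    | tmul r z =>
      refine ⟨r * algebraMap F κ (Algebra.trace F Φ z), ?_⟩
      simp only [hspow]
      rw [← TensorProduct.tmul_sum, hsum]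
      change (r * algebraMap F κ (Algebra.trace F Φ z)) ⊗ₜ (1 : Φ) = _
      rw [mul_comm, ← Algebra.smul_def, TensorProduct.smul_tmul, Algebra.smul_def, mul_one]
    | add y z hy hz =>
      obtain ⟨r, hr⟩ := hy
      obtain ⟨r', hr'⟩ := hz
      refine ⟨r + r', ?_⟩
      rw [map_add, hr, hr', ← Finset.sum_add_distrib]
      exact Finset.sum_congr rfl fun i _ => (map_add _ _ _).symm
  have hfix : ∀ y, s y = y → ∃ r, α r = y := by
    intro y hy
    have hy' : ∀ i : ℕ, (s ^ i) y = y := by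
      intro i
      induction i with
      | zero => rfl
      | succ i ih =>
        rw [pow_succ' s]
        change s ((s ^ i) y) = y
        rw [ih, hy]
    obtain ⟨r, hr⟩ := htr (y * ((1 : κ) ⊗ₜ[F] t))
    refine ⟨r, ?_⟩
    rw [hr]
    have h1 : ∀ i ∈ Finset.range m, (s ^ i) (y * ((1 : κ) ⊗ₜ[F] t)) =
        y * ((1 : κ) ⊗ₜ[F] ((σ ^ i) t)) := by
      intro i _
      rw [map_mul, hy', hspow]
    rw [Finset.sum_congr rfl h1, ← Finset.mul_sum, ← TensorProduct.tmul_sum, hsum, ht, map_one]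
    exact mul_one y
  have hinj := pow_inj hm hσ
  have hBne : Nontrivial (κ ⊗[F] Φ) := ⟨⟨α 0, α 1, fun h => zero_ne_one (hαi h)⟩⟩
  obtain ⟨y, hy⟩ := norm_surj α s hm0 hsm (fun r => by
      change sA (algebraMap κ _ r) = _
      exact sA.commutes r) hfix (by
    obtain ⟨I, hI⟩ := Ideal.exists_maximal (κ ⊗[F] Φ)
    refine ⟨(κ ⊗[F] Φ) ⧸ I, Ideal.Quotient.field I, Ideal.Quotient.mk I, ?_⟩
    intro y hy i hi
    let _ : Field ((κ ⊗[F] Φ) ⧸ I) := Ideal.Quotient.field I
    let π := Ideal.Quotient.mk I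
    have h4 : LinearIndependent ((κ ⊗[F] Φ) ⧸ I)
        (fun i : Fin m => (((π.comp β : Φ →+* _) : Φ →* _).comp
          ((σ ^ (i : ℕ) : Φ ≃ₐ[F] Φ) : Φ →* Φ) : Φ → ((κ ⊗[F] Φ) ⧸ I))) := by
      refine (linearIndependent_monoidHom Φ ((κ ⊗[F] Φ) ⧸ I)).comp (fun i : Fin m =>
        (((π.comp β : Φ →+* _) : Φ →* _).comp ((σ ^ (i : ℕ) : Φ ≃ₐ[F] Φ) : Φ →* Φ))) ?_
      intro i j hij
      apply hinj
      ext z
      exact (π.comp β).injective (DFunLike.congr_fun hij z)
    have h5 := Fintype.linearIndependent_iff.mp h4 (fun i => π (y i)) (by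
      funext z
      rw [Finset.sum_apply, Pi.zero_apply]
      have h6 := hy (β z)
      rw [← Fin.sum_univ_eq_sum_range
        (fun i => π (y i) * π ((s ^ i) (β z)))] at h6
      rw [← h6]
      refine Finset.sum_congr rfl fun i _ => ?_
      rw [Pi.smul_apply, smul_eq_mul]
      congr 1
      change π (β ((σ ^ (i : ℕ)) z)) = π ((s ^ (i : ℕ)) ((1 : κ) ⊗ₜ z))
      rw [hspow]
      rfl)
    exact h5 ⟨i, hi⟩) hx
  refine ⟨fun i => bB.repr y i, ?_⟩
  apply hαi
  have hαβ : ∀ c : F, α (φ c) = β (algebraMap F Φ c) := by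
    intro c
    have h8 : β (algebraMap F Φ c) = algebraMap F (κ ⊗[F] Φ) c :=
      (Algebra.TensorProduct.includeRight : Φ →ₐ[F] κ ⊗[F] Φ).commutes c
    rw [h8, IsScalarTower.algebraMap_apply F κ (κ ⊗[F] Φ)]
    rfl
  rw [nf_prod b φ α β hαβ, ← hy, prod_cyc hm hσ, pn]
  refine Finset.prod_congr rfl fun i _ => ?_
  conv_rhs => rw [← bB.sum_repr y, map_sum]
  refine Finset.sum_congr rfl fun l _ => ?_
  have h7 : bB l = (1 : κ) ⊗ₜ b l := Algebra.TensorProduct.basis_apply b l
  rw [h7, TensorProduct.smul_tmul', hspow, smul_eq_mul, mul_one]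
  change algebraMap κ (κ ⊗[F] Φ) (bB.repr y l) * ((1 : κ) ⊗ₜ ((σ ^ i) (b l))) = _
  rw [← Algebra.smul_def, TensorProduct.smul_tmul', smul_eq_mul, mul_one]

end fin

end Vale.Agent.P011.H553.Cst
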