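import Vale.Agent.P011.H553.Cst.FinN
import Vale.Agent.P011.Hey.H63.Hensel

/-!
# Units are norms from an extension of constants, over every local field (helper553)
-/

namespace Vale.Agent.P011.H553.Cst

open Module Polynomial
open Vale.Agent.P011.Hey.H63 (OK mem_OK hensel ev_sub norm_le)

section det

variable {R : Type*} [NormedField R] [IsUltrametricDist R]

/-- Determinants `det (1 + z M)`, the trace of `M` a unit. -/
theorem exists_det' [CompleteSpace R] {n : Type*} [Fintype n] [DecidableEq n]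
    (M : Matrix n n (OK R)) (hM : ‖((M.trace : OK R) : R)‖ = 1) {u : R} (hu : ‖u - 1‖ < 1) :
    ∃ z : OK R, ‖(z : R)‖ ≤ ‖u - 1‖ ∧ (((1 + z • M).det : OK R) : R) = u := by
  have huO : u ∈ OK R := by
    have h : u = (u - 1) + 1 := by ring
    rw [h]
    exact (OK R).add_mem (mem_OK.mpr hu.le) (OK R).one_mem
  let P : (OK R)[X] := (1 + (X : (OK R)[X]) • M.map C).det - C ⟨u, huO⟩
  have hev : ∀ z : OK R, P.eval z = (1 + z • M).det - ⟨u, huO⟩ := by
    intro z
    simp only [P, Polynomial.eval_sub, eval_C]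
    rw [← coe_evalRingHom, RingHom.map_det]
    congr 2
    ext i j
    simp [Matrix.one_apply, apply_ite]
    exact mul_comm _ _
  have h0 : ((P.coeff 0 : OK R) : R) = -(u - 1) := by
    rw [coeff_zero_eq_eval_zero, hev, zero_smul, add_zero, Matrix.det_one]
    push_cast
    ring
  have h1 : ‖((P.coeff 1 : OK R) : R)‖ = 1 := by
    simp only [P, coeff_sub, Matrix.coeff_det_one_add_X_smul_one, coeff_C_succ, sub_zero]
    exact hM
  obtain ⟨z, hz1, hz⟩ := hensel P (by rw [h0, norm_neg]; exact hu) h1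
  refine ⟨z, ?_, ?_⟩
  · obtain ⟨s, hs, hs2⟩ := ev_sub P z 0
    have hs3 := hs2 ‖(z : R)‖ le_rfl (by
      rw [ZeroMemClass.coe_zero, norm_zero]; exact norm_nonneg _) hz1.le
    have h2 : ‖((P.coeff 1 + s : OK R) : R)‖ = 1 := by
      push_cast
      rw [IsUltrametricDist.norm_add_eq_max_of_norm_ne_norm
        (by rw [h1]; exact (hs3.trans_lt hz1).ne'), h1, max_eq_left (hs3.trans hz1.le)]
    rw [hz, zero_sub, sub_zero, ← coeff_zero_eq_eval_zero] at hs
    have h3 := congrArg (fun x : OK R => ‖(x : R)‖) hs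
    simp only [NegMemClass.coe_neg, norm_neg] at h3
    rw [h0, norm_neg] at h3
    have h4 : ‖(((P.coeff 1 + s) * z : OK R) : R)‖ = ‖(z : R)‖ := by
      rw [MulMemClass.coe_mul, norm_mul, h2, one_mul]
    rw [h4] at h3
    exact h3.ge
  · rw [hev, sub_eq_zero] at hz
    rw [hz]

variable (R) in
/-- the open unit ball -/
def IK : Ideal (OK R) where
  carrier := {x | ‖(x : R)‖ < 1}
  add_mem' {a b} ha hb := (IsUltrametricDist.norm_add_le_max (a : R) b).trans_lt (max_lt ha hb)
  zero_mem' := by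
    change ‖((0 : OK R) : R)‖ < 1
    rw [ZeroMemClass.coe_zero, norm_zero]; exact zero_lt_one
  smul_mem' c x hx := by
    change ‖((c * x : OK R) : R)‖ < 1
    rw [MulMemClass.coe_mul, norm_mul]
    exact mul_lt_one_of_nonneg_of_lt_one_right (norm_le c) (norm_nonneg _) hx

theorem mem_IK {x : OK R} : x ∈ IK R ↔ ‖(x : R)‖ < 1 := Iff.rfl

theorem isMaximal_IK : (IK R).IsMaximal := by
  rw [Ideal.isMaximal_iff]
  refine ⟨fun h => ?_, fun J x _ hx hxJ => ?_⟩
  · rw [mem_IK, OneMemClass.coe_one, norm_one] at h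
    exact lt_irrefl _ h
  · have h1 : ‖(x : R)‖ = 1 := by
      refine le_antisymm (norm_le x) ?_
      rw [mem_IK, not_lt] at hx
      exact hx
    have hx0 : (x : R) ≠ 0 := by
      intro h0
      rw [h0, norm_zero] at h1
      exact zero_ne_one h1
    have h2 : (x : R)⁻¹ ∈ OK R := by rw [mem_OK, norm_inv, h1, inv_one]
    have h3 : (1 : OK R) = ⟨_, h2⟩ * x := Subtype.ext (inv_mul_cancel₀ hx0).symm
    rw [h3]
    exact J.mul_mem_left _ hxJ

theorem finite_res [ProperSpace R] : Finite (OK R ⧸ IK R) := by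
  have hcomp : IsCompact (Metric.closedBall (0 : R) 1) := isCompact_closedBall _ _
  obtain ⟨t, ht, hfin, hcov⟩ := hcomp.finite_cover_balls zero_lt_one
  have hfin' : Finite t := hfin
  refine Finite.of_surjective (fun x : t => Ideal.Quotient.mk (IK R)
    ⟨(x : R), mem_closedBall_zero_iff.mp (ht x.2)⟩) ?_
  intro y
  obtain ⟨y, rfl⟩ := Ideal.Quotient.mk_surjective y
  have h1 := hcov (mem_closedBall_zero_iff.mpr (norm_le y))
  rw [Set.mem_iUnion₂] at h1
  obtain ⟨x, hx, hyx⟩ := h1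
  refine ⟨⟨x, hx⟩, ?_⟩
  rw [Ideal.Quotient.eq, mem_IK]
  rw [mem_ball_iff_norm] at hyx
  rw [← norm_neg]
  refine lt_of_eq_of_lt ?_ hyx
  congr 1
  push_cast
  ring

theorem norm_sub_le_max' (x y : R) : ‖x - y‖ ≤ max ‖x‖ ‖y‖ := by
  rw [sub_eq_add_neg, ← norm_neg y]
  exact IsUltrametricDist.norm_add_le_max _ _

omit [IsUltrametricDist R] in
/-- The elements of a finite field have absolute value at most one. -/
theorem norm_fin {F : Type*} [Field F] [Finite F] (φ : F →+* R) (c : F) : ‖φ c‖ ≤ 1 := by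
  rcases eq_or_ne c 0 with rfl | hc
  · rw [map_zero, norm_zero]; exact zero_le_one
  · obtain ⟨n, hn, h⟩ := isOfFinOrder_iff_pow_eq_one.mp (isOfFinOrder_of_finite (Units.mk0 c hc))
    have h1 : c ^ n = 1 := by
      have := congrArg (fun u : Fˣ => (u : F)) h
      simpa using this
    have h2 : ‖φ c‖ ^ n = 1 := by rw [← norm_pow, ← map_pow, h1, map_one, norm_one]
    exact ((pow_eq_one_iff_of_nonneg (norm_nonneg _) hn.ne').mp h2).le

end det

section main

variable {F Φ R : Type} [Field F] [Finite F] [Field Φ] [Algebra F Φ] [FiniteDimensional F Φ]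
  [IsGalois F Φ] [NormedField R] [IsUltrametricDist R] [ProperSpace R] {m : ℕ}
  (b : Basis (Fin m) F Φ)

/-- Near one. -/
theorem near_nf (φ : F →+* R) {u : R} (hu : ‖u - 1‖ < 1) : ∃ y : Fin m → R, nf b φ y = u ∧
    ∀ i, ‖y i - φ (b.repr 1 i)‖ ≤ ‖u - 1‖ := by
  obtain ⟨t, ht⟩ := Algebra.trace_surjective F Φ 1
  let M : Matrix (Fin m) (Fin m) (OK R) := fun i j =>
    ⟨φ (Algebra.leftMulMatrix b t i j), norm_fin φ _⟩
  have hMt : ((M.trace : OK R) : R) = 1 := by
    rw [← map_one φ, ← ht, Algebra.trace_eq_matrix_trace b, Matrix.trace, Matrix.trace, map_sum]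
    exact map_sum (OK R).subtype _ _
  obtain ⟨z, hz1, hz⟩ := exists_det' M (by rw [hMt, norm_one]) hu
  refine ⟨(fun i => φ (b.repr 1 i)) + (z : R) • fun i => φ (b.repr t i), ?_, fun i => ?_⟩
  · rw [nf, mt_add, mt_smul, mt_one, mt_repr, ← hz]
    change _ = (OK R).subtype _
    rw [RingHom.map_det]
    congr 1
    ext i j
    have h1 : (((1 + z • M) i j : OK R) : R) = (1 : Matrix (Fin m) (Fin m) R) i j +
        (z : R) * φ (Algebra.leftMulMatrix b t i j) := by
      rw [Matrix.add_apply, Matrix.smul_apply]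
      push_cast
      congr 1
      rw [Matrix.one_apply, Matrix.one_apply]
      split_ifs <;> rfl
    exact h1.symm
  · rw [Pi.add_apply, add_sub_cancel_left, Pi.smul_apply, smul_eq_mul, norm_mul]
    calc ‖(z : R)‖ * ‖φ (b.repr t i)‖ ≤ ‖u - 1‖ * 1 :=
          mul_le_mul hz1 (norm_fin φ _) (norm_nonneg _) (norm_nonneg _)
      _ = ‖u - 1‖ := mul_one _

/-- **Units are norms from an extension of constants.** -/
theorem unit_nf (φ : F →+* R) {σ : Φ ≃ₐ[F] Φ} (hσ : ∀ τ : Φ ≃ₐ[F] Φ, ∃ i, i < m ∧ τ = σ ^ i)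
    {x : R} (hx : ‖x‖ = 1) : ∃ y : Fin m → R, nf b φ y = x ∧
    ∀ i, ‖y i - φ (b.repr 1 i)‖ ≤ ‖x - 1‖ := by
  rcases lt_or_ge ‖x - 1‖ 1 with h1 | h1
  · exact near_nf b φ h1
  have hmax := isMaximal_IK (R := R)
  have hfin := finite_res (R := R)
  let _ : Field (OK R ⧸ IK R) := Ideal.Quotient.field (IK R)
  let φO : F →+* OK R := φ.codRestrict (OK R) fun c => norm_fin φ c
  have hφO : ∀ c, ((φO c : OK R) : R) = φ c := fun _ => rfl
  let π : OK R →+* (OK R ⧸ IK R) := Ideal.Quotient.mk (IK R)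
  let xO : OK R := ⟨x, hx.le⟩
  have hx0 : π xO ≠ 0 := by
    intro h0
    rw [Ideal.Quotient.eq_zero_iff_mem, mem_IK] at h0
    exact absurd hx h0.ne
  obtain ⟨y', hy'⟩ := nf_fin b (π.comp φO) hσ hx0
  choose y1 hy1 using fun i => Ideal.Quotient.mk_surjective (y' i)
  have h2 : π (nf b φO y1) = π xO := by
    rw [nf_map, ← hy']
    congr 1
    funext i
    exact hy1 i
  have h3 : ‖((nf b φO y1 : OK R) : R) - x‖ < 1 := by
    have h4 : nf b φO y1 - xO ∈ IK R := by
      rw [← Ideal.Quotient.eq_zero_iff_mem, map_sub, sub_eq_zero]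
      exact h2
    exact h4
  set r : R := ((nf b φO y1 : OK R) : R) with hr
  have hr1 : ‖r‖ = 1 := by
    have h5 : r = (r - x) + x := by ring
    rw [h5, IsUltrametricDist.norm_add_eq_max_of_norm_ne_norm (by rw [hx]; exact h3.ne), hx,
      max_eq_right h3.le]
  have hr0 : r ≠ 0 := by rw [← norm_ne_zero_iff, hr1]; exact one_ne_zero
  obtain ⟨y2, hy2, hy2'⟩ := near_nf b φ (u := x / r) (by
    have h6 : x / r - 1 = -(r - x) / r := by field_simp; ring
    rw [h6, norm_div, norm_neg, hr1, div_one]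
    exact h3)
  have h7 : nf b φ (fun i => ((y1 i : OK R) : R)) = r := by
    have h8 := nf_map b (OK R).subtype φO y1
    exact h8.symm
  obtain ⟨y, hy, hyn⟩ := nf_mul b φ (fun i => ((y1 i : OK R) : R)) y2
  have hle : ‖x / r - 1‖ ≤ 1 := by
    refine (norm_sub_le_max' _ _).trans (max_le ?_ ?_)
    · rw [norm_div, hx, hr1, div_one]
    · rw [norm_one]
  have hy2O : ∀ i, ‖y2 i‖ ≤ 1 := by
    intro i
    have h8 : y2 i = (y2 i - φ (b.repr 1 i)) + φ (b.repr 1 i) := by ring
    rw [h8]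
    exact (IsUltrametricDist.norm_add_le_max _ _).trans
      (max_le ((hy2' i).trans hle) (norm_fin φ _))
  have hyO : ∀ i, ‖y i‖ ≤ 1 := by
    intro i
    have h9 : y i ∈ OK R := by
      rw [hy, Finset.sum_apply]
      refine (OK R).sum_mem fun a _ => ?_
      rw [Finset.sum_apply]
      refine (OK R).sum_mem fun c _ => ?_
      rw [Pi.smul_apply, smul_eq_mul]
      exact (OK R).mul_mem ((OK R).mul_mem (y1 a).2 (hy2O c)) (norm_fin φ _)
    exact h9
  refine ⟨y, ?_, fun i => ?_⟩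
  · rw [hyn, h7, hy2, mul_div_cancel₀ _ hr0]
  · refine le_trans ?_ h1
    exact (norm_sub_le_max' _ _).trans (max_le (hyO i) (norm_fin φ _))

end main

end Vale.Agent.P011.H553.Cst
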