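import Mathlib

/-!
# The norm form of a basis and its product formula (helper553)
-/

namespace Vale.Agent.P011.H553.Cst

open Module

section nf

variable {K L : Type*} [Field K] [Field L] [Algebra K L] {m : ℕ} (b : Basis (Fin m) K L)
  {R : Type*} [CommRing R]

/-- The matrix of the multiplication by `∑ y i ⊗ b i`. -/
noncomputable def mt (φ : K →+* R) (y : Fin m → R) : Matrix (Fin m) (Fin m) R :=
  ∑ i, y i • (Algebra.leftMulMatrix b (b i)).map φ

theorem mt_repr (φ : K →+* R) (x : L) :
    mt b φ (fun i => φ (b.repr x i)) = (Algebra.leftMulMatrix b x).map φ := by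
  conv_rhs => rw [← b.sum_repr x, map_sum]
  ext i j
  rw [mt, Matrix.map_apply, Matrix.sum_apply, Matrix.sum_apply, map_sum]
  refine Finset.sum_congr rfl fun l _ => ?_
  rw [map_smul, Matrix.smul_apply, Matrix.smul_apply, Matrix.map_apply, smul_eq_mul, smul_eq_mul,
    map_mul]

theorem mt_one (φ : K →+* R) : mt b φ (fun i => φ (b.repr 1 i)) = 1 := by
  rw [mt_repr, map_one]
  exact Matrix.map_one _ (map_zero φ) (map_one φ)

theorem mt_add (φ : K →+* R) (y z : Fin m → R) : mt b φ (y + z) = mt b φ y + mt b φ z := by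
  simp only [mt, Pi.add_apply, add_smul, Finset.sum_add_distrib]

theorem mt_smul (φ : K →+* R) (c : R) (y : Fin m → R) : mt b φ (c • y) = c • mt b φ y := by
  simp only [mt, Pi.smul_apply, smul_eq_mul, mul_smul, Finset.smul_sum]

theorem mt_zero (φ : K →+* R) : mt b φ 0 = 0 := by
  simp [mt]

theorem mt_sum {ι : Type*} (s : Finset ι) (φ : K →+* R) (y : ι → Fin m → R) :
    mt b φ (∑ i ∈ s, y i) = ∑ i ∈ s, mt b φ (y i) := by
  classical
  induction s using Finset.induction_on with
  | empty => rw [Finset.sum_empty, Finset.sum_empty, mt_zero]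
  | insert a s ha ih => rw [Finset.sum_insert ha, Finset.sum_insert ha, mt_add, ih]

theorem mt_mul (φ : K →+* R) (y z : Fin m → R) : mt b φ y * mt b φ z =
    mt b φ (∑ i, ∑ j, (y i * z j) • fun l => φ (b.repr (b i * b j) l)) := by
  rw [mt_sum]
  simp only [mt_sum, mt_smul, mt_repr]
  rw [mt, mt, Finset.sum_mul]
  refine Finset.sum_congr rfl fun i _ => ?_
  rw [Finset.mul_sum]
  refine Finset.sum_congr rfl fun j _ => ?_
  rw [map_mul, smul_mul_smul_comm]
  congr 1
  exact (Matrix.map_mul (f := φ)).symm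

theorem mt_map {R' : Type*} [CommRing R'] (ρ : R →+* R') (φ : K →+* R) (y : Fin m → R) :
    (mt b φ y).map ρ = mt b (ρ.comp φ) (fun i => ρ (y i)) := by
  ext i j
  rw [mt, mt, Matrix.map_apply, Matrix.sum_apply, Matrix.sum_apply, map_sum]
  refine Finset.sum_congr rfl fun l _ => ?_
  rw [Matrix.smul_apply, Matrix.smul_apply, Matrix.map_apply, Matrix.map_apply, smul_eq_mul,
    smul_eq_mul, map_mul]
  rfl

/-- The norm form. -/
noncomputable def nf (φ : K →+* R) (y : Fin m → R) : R := (mt b φ y).det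

theorem nf_map {R' : Type*} [CommRing R'] (ρ : R →+* R') (φ : K →+* R) (y : Fin m → R) :
    ρ (nf b φ y) = nf b (ρ.comp φ) (fun i => ρ (y i)) := by
  rw [nf, nf, RingHom.map_det]
  exact congrArg Matrix.det (mt_map b ρ φ y)

theorem nf_mul (φ : K →+* R) (y z : Fin m → R) : ∃ x : Fin m → R,
    x = ∑ i, ∑ j, (y i * z j) • (fun l => φ (b.repr (b i * b j) l)) ∧
      nf b φ x = nf b φ y * nf b φ z :=
  ⟨_, rfl, by rw [nf, ← mt_mul, Matrix.det_mul]; rfl⟩

end nf

section gal

variable {K L : Type*} [Field K] [Field L] [Algebra K L] [FiniteDimensional K L] [IsGalois K L]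
  {m : ℕ} (b : Basis (Fin m) K L)

omit [FiniteDimensional K L] [IsGalois K L] in
/-- The conjugates of a basis are linearly independent. -/
theorem det_conj_ne {ι : Type*} [Fintype ι] [DecidableEq ι] (b : Basis ι K L)
    (e : ι → (L ≃ₐ[K] L)) (he : Function.Injective e) :
    (Matrix.of fun i j => (e i) (b j)).det ≠ 0 := by
  intro h0
  obtain ⟨v, hv0, hv⟩ := Matrix.exists_vecMul_eq_zero_iff.mpr h0
  apply hv0
  have h1 : ∀ x : L, ∑ i, v i * (e i) x = 0 := by
    intro x
    have h2 : ∀ j, ∑ i, v i * (e i) (b j) = 0 := fun j => congrFun hv j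
    rw [← b.sum_repr x]
    simp only [map_sum, map_smul, Finset.mul_sum]
    rw [Finset.sum_comm]
    refine Finset.sum_eq_zero fun j _ => ?_
    have h3 : ∑ i, v i * (b.repr x j • (e i) (b j)) = b.repr x j • ∑ i, v i * (e i) (b j) := by
      rw [Finset.smul_sum]
      exact Finset.sum_congr rfl fun i _ => by rw [mul_smul_comm]
    rw [h3, h2, smul_zero]
  have h4 : LinearIndependent L (fun i : ι => ((e i : L ≃ₐ[K] L) : L →* L) : ι → L → L) := by
    refine (linearIndependent_monoidHom L L).comp (fun i : ι => ((e i : L ≃ₐ[K] L) : L →* L)) ?_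
    intro i j hij
    apply he
    ext x
    exact DFunLike.congr_fun hij x
  have h5 := Fintype.linearIndependent_iff.mp h4 v (by
    funext x
    rw [Finset.sum_apply]
    exact h1 x)
  exact funext h5

/-- **The product formula** of the norm form. -/
theorem nf_prod {R C : Type*} [CommRing R] [CommRing C] (φ : K →+* R) (α : R →+* C)
    (β : L →+* C) (hαβ : ∀ c, α (φ c) = β (algebraMap K L c)) (y : Fin m → R) :
    α (nf b φ y) = ∏ τ : (L ≃ₐ[K] L), ∑ l, α (y l) * β (τ (b l)) := by
  classical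
  have hcard : Fintype.card (L ≃ₐ[K] L) = Fintype.card (Fin m) := by
    rw [← Nat.card_eq_fintype_card, IsGalois.card_aut_eq_finrank, finrank_eq_card_basis b]
  let e : Fin m ≃ (L ≃ₐ[K] L) := (Fintype.equivOfCardEq hcard).symm
  let A : Matrix (Fin m) (Fin m) L := Matrix.of fun i j => (e i) (b j)
  have hA : A.det ≠ 0 := det_conj_ne b e e.injective
  have key : (A.map β) * (mt b (α.comp φ) fun i => α (y i)) =
      Matrix.diagonal (fun i => ∑ l, α (y l) * β ((e i) (b l))) * (A.map β) := by
    ext i j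
    rw [Matrix.diagonal_mul, Matrix.mul_apply, Finset.sum_mul]
    have h1 : ∀ l, ∑ x, (A.map β) i x * ((Algebra.leftMulMatrix b (b l)).map (α.comp φ)) x j =
        β ((e i) (b l)) * β ((e i) (b j)) := by
      intro l
      have h2 : ∑ x, b.repr (b l * b j) x • b x = b l * b j := b.sum_repr _
      rw [← map_mul, ← map_mul, ← h2, map_sum, map_sum]
      refine Finset.sum_congr rfl fun x _ => ?_
      have hAe : (A.map β) i x = β ((e i) (b x)) := rfl
      rw [hAe, Matrix.map_apply, Algebra.leftMulMatrix_eq_repr_mul,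
        RingHom.comp_apply, hαβ, ← map_mul]
      congr 1
      rw [map_smul, Algebra.smul_def, mul_comm]
    calc ∑ x, (A.map β) i x * (mt b (α.comp φ) fun i => α (y i)) x j =
        ∑ x, ∑ l, α (y l) *
          ((A.map β) i x * ((Algebra.leftMulMatrix b (b l)).map (α.comp φ)) x j) := by
          refine Finset.sum_congr rfl fun x _ => ?_
          rw [mt, Matrix.sum_apply, Finset.mul_sum]
          refine Finset.sum_congr rfl fun l _ => ?_
          rw [Matrix.smul_apply, smul_eq_mul]
          ring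
      _ = ∑ l, α (y l) * β ((e i) (b l)) * (A.map β) i j := by
          rw [Finset.sum_comm]
          refine Finset.sum_congr rfl fun l _ => ?_
          rw [← Finset.mul_sum, h1, mul_assoc]
          rfl
  have h3 := congrArg Matrix.det key
  rw [Matrix.det_mul, Matrix.det_mul, Matrix.det_diagonal, mul_comm] at h3
  have hu : IsUnit ((A.map β).det) := by
    have h4 : (A.map β).det = β A.det := (RingHom.map_det β A).symm
    rw [h4]
    exact (IsUnit.mk0 _ hA).map β
  have h5 := hu.mul_right_cancel h3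
  rw [nf_map]
  change (mt b (α.comp φ) fun i => α (y i)).det = _
  rw [h5]
  exact e.prod_comp (fun τ : (L ≃ₐ[K] L) => ∑ l, α (y l) * β (τ (b l)))

/-- The product over a cyclic group. -/
theorem prod_cyc {M : Type*} [CommMonoid M] (hm : finrank K L = m) {σ : L ≃ₐ[K] L}
    (hσ : ∀ τ : L ≃ₐ[K] L, ∃ i, i < m ∧ τ = σ ^ i) (f : (L ≃ₐ[K] L) → M) :
    ∏ τ : (L ≃ₐ[K] L), f τ = ∏ i ∈ Finset.range m, f (σ ^ i) := by
  classical
  rw [← Fin.prod_univ_eq_prod_range (fun i => f (σ ^ i))]
  have hs : Function.Surjective (fun i : Fin m => σ ^ (i : ℕ)) := by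
    intro τ
    obtain ⟨i, hi, h⟩ := hσ τ
    exact ⟨⟨i, hi⟩, h.symm⟩
  have hcard : Fintype.card (Fin m) = Fintype.card (L ≃ₐ[K] L) := by
    rw [← Nat.card_eq_fintype_card (α := (L ≃ₐ[K] L)), IsGalois.card_aut_eq_finrank, hm,
      Fintype.card_fin]
  have hb : Function.Bijective (fun i : Fin m => σ ^ (i : ℕ)) :=
    (Fintype.bijective_iff_surjective_and_card _).mpr ⟨hs, hcard⟩
  exact (Fintype.prod_bijective _ hb (fun i : Fin m => f (σ ^ (i : ℕ))) f fun _ => rfl).symm

theorem pow_inj (hm : finrank K L = m) {σ : L ≃ₐ[K] L}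
    (hσ : ∀ τ : L ≃ₐ[K] L, ∃ i, i < m ∧ τ = σ ^ i) :
    Function.Injective (fun i : Fin m => σ ^ (i : ℕ)) := by
  classical
  have hs : Function.Surjective (fun i : Fin m => σ ^ (i : ℕ)) := by
    intro τ
    obtain ⟨i, hi, h⟩ := hσ τ
    exact ⟨⟨i, hi⟩, h.symm⟩
  have hcard : Fintype.card (Fin m) = Fintype.card (L ≃ₐ[K] L) := by
    rw [← Nat.card_eq_fintype_card (α := (L ≃ₐ[K] L)), IsGalois.card_aut_eq_finrank, hm,
      Fintype.card_fin]
  exact ((Fintype.bijective_iff_surjective_and_card _).mpr ⟨hs, hcard⟩).1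

/-- Where `L` embeds every element is a value of the norm form. -/
theorem nf_of_hom {R : Type*} [Field R] (φ : K →+* R) (ψ : L →+* R)
    (hψ : ∀ c, ψ (algebraMap K L c) = φ c) (x : R) : ∃ y : Fin m → R, nf b φ y = x := by
  classical
  have hcard : Fintype.card (L ≃ₐ[K] L) = Fintype.card (Fin m) := by
    rw [← Nat.card_eq_fintype_card, IsGalois.card_aut_eq_finrank, finrank_eq_card_basis b]
  let e : Fin m ≃ (L ≃ₐ[K] L) := (Fintype.equivOfCardEq hcard).symm
  let A : Matrix (Fin m) (Fin m) L := Matrix.of fun i j => (e i) (b j)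
  have hA : A.det ≠ 0 := det_conj_ne b e e.injective
  have hu : IsUnit (A.map ψ).det := by
    have h4 : (A.map ψ).det = ψ A.det := (RingHom.map_det ψ A).symm
    rw [h4]
    exact (IsUnit.mk0 _ hA).map ψ
  let w : Fin m → R := fun i => if e i = 1 then x else 1
  let y : Fin m → R := (A.map ψ)⁻¹.mulVec w
  have hy : (A.map ψ).mulVec y = w := by
    rw [Matrix.mulVec_mulVec, Matrix.mul_nonsing_inv _ hu, Matrix.one_mulVec]
  refine ⟨y, ?_⟩
  have h1 := nf_prod b φ (RingHom.id R) ψ (fun c => (hψ c).symm) y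
  rw [RingHom.id_apply] at h1
  rw [h1, ← e.prod_comp (fun τ : (L ≃ₐ[K] L) => ∑ l, (RingHom.id R) (y l) * ψ (τ (b l)))]
  have h2 : ∀ i, ∑ l, (RingHom.id R) (y l) * ψ ((e i) (b l)) = w i := by
    intro i
    have h3 := congrFun hy i
    rw [← h3, Matrix.mulVec, dotProduct]
    refine Finset.sum_congr rfl fun l _ => ?_
    rw [mul_comm]
    rfl
  rw [Finset.prod_congr rfl fun i _ => h2 i]
  rw [Finset.prod_eq_single (e.symm 1)]
  · change (if e (e.symm 1) = 1 then x else 1) = x
    rw [e.apply_symm_apply, if_pos rfl]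
  · intro i _ hi
    have : e i ≠ 1 := fun h => hi (by rw [← h, e.symm_apply_apply])
    exact if_neg this
  · intro h
    exact absurd (Finset.mem_univ _) h

end gal

end Vale.Agent.P011.H553.Cst
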