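import Vale.Agent.P011.H553.Cst.Ext
import Vale.Agent.P011.H279.SplG

/-!
# Splitting of a central division algebra by roots of unity (helper553)
-/

set_option linter.unusedSectionVars false

namespace Vale.Agent.P011.H553.Cst

open Module Polynomial
open Vale.Agent.P011.W Vale.Agent.P011.H738 Vale.Agent.P011.H271 Vale.Agent.P011.H279.Sq
open Vale.Agent.P011.Even.LocDiv
open Vale.Agent.P011.H961 (SetG)

section loc

/-- The order of the root of unity of a frame is prime to the characteristic. -/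
theorem frame_not_dvd {E : Type} [NormedDivisionRing E] (R : Frame E) (p : ℕ) [Fact p.Prime]
    [CharP E p] : ¬ p ∣ R.N := by
  rintro ⟨n, hn⟩
  have hp := Fact.out (p := p.Prime)
  have hn0 : 0 < n := by
    rcases Nat.eq_zero_or_pos n with h | h
    · have := R.hN
      rw [hn, h, mul_zero] at this
      exact absurd this (lt_irrefl _)
    · exact h
  have h1 : (R.ζ ^ n - 1) ^ p = 0 := by
    rw [sub_pow_char_of_commute p (Commute.one_right (R.ζ ^ n)), one_pow, ← pow_mul, mul_comm n p,
      ← hn, R.ζN, sub_self]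
  have h2 : R.ζ ^ n - 1 = 0 := pow_eq_zero_iff hp.ne_zero |>.mp h1
  have h3 : ‖R.ζ ^ n - 1‖ < 1 := by rw [h2, norm_zero]; exact zero_lt_one
  have h4 := Nat.le_of_dvd hn0 ((R.dvd n).mp h3)
  have h5 : 2 ≤ p := hp.two_le
  rw [hn] at h4
  nlinarith

variable {k E : Type} [NontriviallyNormedField k] [IsUltrametricDist k] [ProperSpace k]
  [DivisionRing E] [Algebra k E] [FiniteDimensional k E] [Algebra.IsCentral k E]

/-- **A local central division algebra is split by the roots of unity of some order prime to the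
characteristic.** -/
theorem exists_N {q : ℕ} (hq : finrank k E = q ^ 2) (p : ℕ) [Fact p.Prime] [CharP k p] :
    ∃ N : ℕ, ¬ p ∣ N ∧ ∀ N' : ℕ, N ∣ N' → N' ≠ 0 → ∀ (M : Type) [Field M] [Algebra k M],
      (∃ z : M, IsPrimitiveRoot z N') → Spl E q (algebraMap k M) := by
  let _ : NormedDivisionRing E := ndr k
  let _ : NormedAlgebra k E :=
    { (inferInstance : Algebra k E) with
      norm_smul_le := fun c x => by
        change nm k (c • x) ≤ ‖c‖ * nm k x
        rw [Algebra.smul_def, nm_mul, nm_algebraMap] }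
  have hU : IsUltrametricDist E := IsUltrametricDist.isUltrametricDist_of_forall_norm_add_le_max_norm
    (fun x y => nm_add_le_max k x y)
  have : ProperSpace E := FiniteDimensional.proper k E
  obtain ⟨c, hc0, hc1⟩ := NormedField.exists_norm_lt_one k
  have hc : ‖algebraMap k E c‖ = ‖c‖ := nm_algebraMap k c
  have hcne : algebraMap k E c ≠ 0 := by
    rw [← norm_ne_zero_iff, hc]
    exact hc0.ne'
  obtain ⟨R⟩ := exists_frame (algebraMap k E c) hcne (by rw [hc]; exact hc1)
  obtain ⟨W, _, _, _, ⟨C⟩⟩ := exists_cyc (k := k) R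
  have hm : C.m = q := m_eq C hq
  have hchE : CharP E p := charP_of_injective_algebraMap (algebraMap k E).injective p
  refine ⟨R.N, frame_not_dvd R p, ?_⟩
  intro N' hdvd hN' M _ _ ⟨z, hz⟩
  have hq0 : 0 < q := deg_pos hq
  obtain ⟨X', -, hdim⟩ := C.exists_X
  rw [Module.finrank_fin_fun, hm, hq] at hdim
  have hW : finrank k W = q := by
    have h1 : q * finrank k W = q * q := by rw [hdim, pow_two]
    exact Nat.eq_of_mul_eq_mul_left hq0 h1
  have hintE : IsIntegral k R.ζ := Algebra.IsIntegral.isIntegral R.ζ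
  have hdegW : (minpoly k C.ω).natDegree = finrank k W := by
    have hintW : IsIntegral k C.ω := Algebra.IsIntegral.isIntegral C.ω
    rw [← (IntermediateField.adjoin.finrank hintW)]
    have h2 : (IntermediateField.adjoin k {C.ω} : IntermediateField k W) = ⊤ := by
      rw [eq_top_iff]
      intro w _
      obtain ⟨f, rfl⟩ := C.gen w
      have h3 : aeval C.ω f ∈ Algebra.adjoin k {C.ω} := by
        rw [Algebra.adjoin_singleton_eq_range_aeval]
        exact ⟨f, rfl⟩
      exact IntermediateField.algebra_adjoin_le_adjoin k {C.ω} h3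
    rw [h2]
    exact IntermediateField.finrank_top'
  have hdeg : (minpoly k R.ζ).natDegree = q := by
    rw [← C.hω, minpoly.algHom_eq C.ι C.inj, hdegW, hW]
  -- the root in `M`
  obtain ⟨t, rfl⟩ := hdvd
  have hNpos : 0 < R.N * t := Nat.pos_of_ne_zero hN'
  have hz1 : IsPrimitiveRoot (z ^ t) R.N := hz.pow hNpos (mul_comm _ _)
  have hsp : ((X : M[X]) ^ R.N - 1).Splits := X_pow_sub_one_splits hz1
  have hdvd2 : minpoly k R.ζ ∣ X ^ R.N - 1 := minpoly.dvd k R.ζ (by
    rw [map_sub, map_pow, aeval_X, map_one, R.ζN, sub_self])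
  have hdvd3 : (minpoly k R.ζ).map (algebraMap k M) ∣ (X : M[X]) ^ R.N - 1 := by
    have h3 := Polynomial.map_dvd (algebraMap k M) hdvd2
    rwa [Polynomial.map_sub, Polynomial.map_pow, map_X, Polynomial.map_one] at h3
  have hne : ((X : M[X]) ^ R.N - 1) ≠ 0 := (monic_X_pow_sub_C (1 : M) R.hN.ne').ne_zero
  have hsp2 : ((minpoly k R.ζ).map (algebraMap k M)).Splits := hsp.of_dvd hne hdvd3
  obtain ⟨θ, hθ⟩ := hsp2.exists_eval_eq_zero (by
    rw [degree_map, degree_eq_natDegree (minpoly.ne_zero hintE), hdeg]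
    exact_mod_cast hq0.ne')
  refine spl_of_root hq R.ζ hdeg θ ?_
  rwa [eval_map_algebraMap] at hθ

end loc

/-- **The local step.** -/
theorem exists_N' {K D F : Type} [Field K] [DivisionRing D] [Algebra K D] [FiniteDimensional K D]
    [Algebra.IsCentral K D] {n : ℕ} (hD : finrank K D = n ^ 2) [NontriviallyNormedField F]
    [IsUltrametricDist F] [ProperSpace F] (ι : K →+* F) (p : ℕ) [Fact p.Prime] [CharP F p] :
    ∃ N : ℕ, ¬ p ∣ N ∧ ∀ N' : ℕ, N ∣ N' → N' ≠ 0 → ∀ (M : Type) [Field M] (φ : F →+* M),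
      (∃ z : M, IsPrimitiveRoot z N') → Spl D n (φ.comp ι) := by
  let _ : Algebra K F := ι.toAlgebra
  obtain ⟨r, q, Δ, _, _, _, _, hrq, hr0, hΔ, hiff⟩ := H505.Wang.exists_part hD F
  obtain ⟨N, hN, h⟩ := exists_N hΔ p
  refine ⟨N, hN, ?_⟩
  intro N' hd hN' M _ φ hz
  let _ : Algebra F M := φ.toAlgebra
  exact (hiff M φ).mpr (h N' hd hN' M hz)

section glob

variable {k K D : Type} [Field k] [Field K] [StarRing K] [DivisionRing D] [StarRing D]
  [Algebra k K] [Algebra k D] [Algebra K D] [IsScalarTower k K D] {n : ℕ}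

/-- **Some order of roots of unity prime to the characteristic splits `D`.** -/
theorem exists_spl [GFF k] (hS : SetG k K D) (hdeg : finrank K D = n ^ 2) (p : ℕ) [Fact p.Prime]
    [CharP k p] : ∃ N : ℕ, ¬ p ∣ N ∧ ∀ (L : Type) [Field L] [Algebra K L] [FiniteDimensional K L],
      (∃ z : L, IsPrimitiveRoot z N) → Spl D n (algebraMap K L) := by
  classical
  have := hS.fin
  have := hS.cen
  have := hS.finK
  have := hS.sep
  have hn : 0 < n := deg_pos hdeg
  have hp := Fact.out (p := p.Prime)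
  have hfinB : (Bad k K D n).Finite := H279.Art.bad_finiteG hS hn.ne' hdeg
  have hN : ∀ (v : Place k) (ι : K →ₐ[k] v.comp), ∃ N : ℕ, ¬ p ∣ N ∧ ∀ N' : ℕ, N ∣ N' → N' ≠ 0 →
      ∀ (M : Type) [Field M] (φ : v.comp →+* M), (∃ z : M, IsPrimitiveRoot z N') →
        Spl D n (φ.comp (ι : K →+* v.comp)) := by
    intro v ι
    let _ : NontriviallyNormedField v.comp := nnfPlace v
    have hch : CharP v.comp p :=
      charP_of_injective_algebraMap (algebraMap k v.comp).injective p
    exact exists_N' hdeg (ι : K →+* v.comp) p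
  choose Nf hNf1 hNf2 using hN
  have hfinι : ∀ v : Place k, Finite (K →ₐ[k] v.comp) := fun v => inferInstance
  let _ : ∀ v : Place k, Fintype (K →ₐ[k] v.comp) := fun v => Fintype.ofFinite _
  let N : ℕ := ∏ v ∈ hfinB.toFinset, ∏ ι : (K →ₐ[k] v.comp), Nf v ι
  have hNp : ¬ p ∣ N := by
    intro h
    obtain ⟨v, -, hv⟩ := (hp.prime.dvd_finsetProd_iff _).mp h
    obtain ⟨ι, -, hι⟩ := (hp.prime.dvd_finsetProd_iff _).mp hv
    exact hNf1 v ι hι
  have hN0 : N ≠ 0 := by
    intro h
    exact hNp (h ▸ dvd_zero p)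
  refine ⟨N, hNp, ?_⟩
  intro L _ _ _ ⟨z, hz⟩
  let _ : Algebra k L := ((algebraMap K L).comp (algebraMap k K)).toAlgebra
  have : IsScalarTower k K L := IsScalarTower.of_algebraMap_eq fun x => rfl
  have : FiniteDimensional k L := Module.Finite.trans K L
  have : GFF L := Hey.H63.gff_of_finite (k := k)
  refine spl_of_local hdeg L fun W => H279.Art.spl_placeG hS hdeg L W ?_
  intro v ι φ hv hφ
  refine hNf2 v ι N ?_ hN0 W.comp φ ⟨algebraMap L W.comp z,
    hz.map_of_injective (algebraMap L W.comp).injective⟩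
  exact (Finset.dvd_prod_of_mem _ (Finset.mem_univ ι)).trans
    (Finset.dvd_prod_of_mem (fun v : Place k => ∏ ι : (K →ₐ[k] v.comp), Nf v ι)
      (hfinB.mem_toFinset.mpr hv))

end glob

end Vale.Agent.P011.H553.Cst
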